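import Vale.Agent.P182.H58.Glue7
import Mathlib.Tactic.NoncommRing

/-!
# Corrections in `I ⊙ W` and `I ∧ W`

Tensors in `X ⊗ Y` are the endomorphisms with image in `X` which kill `perp Y`; the flip is the
adjoint.  `W` is a space with `∑ S a W = W`, `I ≤ W` is a stable nilpotent part, `e` a self adjoint
endomorphism with image in `W`, which kills `I` and is the identity modulo `I` on `W`.

* `exists_solve`: `∑ [S a, b a] = K` for `K ∈ I ⊗ W` with `b a ∈ I ⊗ W`;
* `exists_solve_sk`: the same for skew `K ∈ W ⊗ W` with `K W ≤ I`, with self adjoint `b a`;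
* `exists_solve_sa`: the same for self adjoint `K`, with skew `b a`;
* `exists_corr_sa`, `exists_corr_sk`: a tensor at one arm commuting modulo `I` can be completed to
  a family with `∑ [S a, β a] = 0`.
-/

namespace Vale.Agent.P182.H818

open Module Vale.Agent.P182.H533 Vale.Agent.P182.H58.Glue7

section tensors

variable {L V : Type*} [Field L] [AddCommGroup V] [Module L V]

/-- tensors in `X ⊗ Y`: the tensor `x ⊗ y` is `v ↦ q y v • x` -/
def Tn (q : V →ₗ[L] V →ₗ[L] L) (X Y : Submodule L V) : Submodule L (End L V) where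
  carrier := {T | (∀ v, T v ∈ X) ∧ ∀ v ∈ perp q Y, T v = 0}
  add_mem' := by
    rintro A B ⟨hA, hA'⟩ ⟨hB, hB'⟩
    exact ⟨fun v => X.add_mem (hA v) (hB v), fun v hv => by
      rw [LinearMap.add_apply, hA' v hv, hB' v hv, add_zero]⟩
  zero_mem' := ⟨fun v => X.zero_mem, fun v _ => rfl⟩
  smul_mem' := by
    rintro c A ⟨hA, hA'⟩
    exact ⟨fun v => X.smul_mem c (hA v), fun v hv => by
      rw [LinearMap.smul_apply, hA' v hv, smul_zero]⟩

theorem mem_Tn {q : V →ₗ[L] V →ₗ[L] L} {X Y : Submodule L V} {T : End L V} :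
    T ∈ Tn q X Y ↔ (∀ v, T v ∈ X) ∧ ∀ v ∈ perp q Y, T v = 0 := Iff.rfl

theorem Tn_mono {q : V →ₗ[L] V →ₗ[L] L} {X X' Y Y' : Submodule L V} (hX : X ≤ X') (hY : Y ≤ Y') :
    Tn q X Y ≤ Tn q X' Y' := fun _ hT =>
  ⟨fun v => hX (hT.1 v), fun v hv => hT.2 v fun w hw => hv w (hY hw)⟩

/-- `A'` is the adjoint of `A` -/
def IsAdj (q : V →ₗ[L] V →ₗ[L] L) (A A' : End L V) : Prop := ∀ u v, q (A u) v = q u (A' v)

variable {q : V →ₗ[L] V →ₗ[L] L}

theorem IsAdj.symm (hq : IsForm q) {A A' : End L V} (h : IsAdj q A A') : IsAdj q A' A :=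
  fun u v => by rw [hq.symm, ← h, hq.symm]

theorem IsAdj.add {A A' B B' : End L V} (h : IsAdj q A A') (h' : IsAdj q B B') :
    IsAdj q (A + B) (A' + B') := fun u v => by
  rw [LinearMap.add_apply, LinearMap.add_apply, map_add, LinearMap.add_apply, map_add, h, h']

theorem IsAdj.neg {A A' : End L V} (h : IsAdj q A A') : IsAdj q (-A) (-A') := fun u v => by
  rw [LinearMap.neg_apply, LinearMap.neg_apply, map_neg, LinearMap.neg_apply, map_neg, h]

theorem IsAdj.sub {A A' B B' : End L V} (h : IsAdj q A A') (h' : IsAdj q B B') :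
    IsAdj q (A - B) (A' - B') := by
  rw [sub_eq_add_neg, sub_eq_add_neg]; exact h.add h'.neg

theorem IsAdj.mul {A A' B B' : End L V} (h : IsAdj q A A') (h' : IsAdj q B B') :
    IsAdj q (A * B) (B' * A') := fun u v => by
  rw [Module.End.mul_apply, Module.End.mul_apply, h, h']

theorem IsAdj.one : IsAdj q 1 1 := fun _ _ => rfl

theorem IsAdj.smul {A A' : End L V} (c : L) (h : IsAdj q A A') : IsAdj q (c • A) (c • A') :=
  fun u v => by
  rw [LinearMap.smul_apply, LinearMap.smul_apply, map_smul, LinearMap.smul_apply, map_smul, h]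

theorem IsAdj.of_SA {A : End L V} (h : IsSA q A) : IsAdj q A A := h

theorem IsAdj.of_Sk {A : End L V} (h : IsSk q A) : IsAdj q A (-A) := fun u v => by
  rw [h u v, LinearMap.neg_apply, map_neg]

theorem IsAdj.unique (hq : IsForm q) {A A' A'' : End L V} (h : IsAdj q A A')
    (h' : IsAdj q A A'') : A' = A'' := by
  ext v
  rw [← sub_eq_zero]
  refine hq.nondeg _ fun u => ?_
  rw [map_sub, LinearMap.sub_apply, hq.symm, ← h, hq.symm _ u, ← h', sub_self]

theorem IsAdj.sum {ι : Type*} (s : Finset ι) {A A' : ι → End L V}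
    (h : ∀ i ∈ s, IsAdj q (A i) (A' i)) : IsAdj q (∑ i ∈ s, A i) (∑ i ∈ s, A' i) := by
  classical
  induction s using Finset.induction_on with
  | empty => simp only [Finset.sum_empty]; intro u v; simp
  | insert a s ha ih =>
    rw [Finset.sum_insert ha, Finset.sum_insert ha]
    exact (h a (Finset.mem_insert_self a s)).add
      (ih fun i hi => h i (Finset.mem_insert_of_mem hi))

theorem mul_mem_Tn {X X' Y : Submodule L V} {A T : End L V} (hA : ∀ x ∈ X, A x ∈ X')
    (hT : T ∈ Tn q X Y) : A * T ∈ Tn q X' Y :=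
  ⟨fun v => hA _ (hT.1 v), fun v hv => by rw [Module.End.mul_apply, hT.2 v hv, map_zero]⟩

theorem mem_mul_Tn {X Y Y' : Submodule L V} {A A' T : End L V} (hA : IsAdj q A A')
    (hY : ∀ y ∈ Y, A' y ∈ Y') (hT : T ∈ Tn q X Y) : T * A ∈ Tn q X Y' :=
  ⟨fun v => hT.1 _, fun v hv => hT.2 _ fun y hy => by rw [hA]; exact hv _ (hY y hy)⟩

theorem rk_mem_Tn (hq : IsForm q) {X Y : Submodule L V} {x y : V} (hx : x ∈ X) (hy : y ∈ Y) :
    rk q x y ∈ Tn q X Y :=
  ⟨fun v => X.smul_mem _ hx, fun v hv => by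
    rw [rk_apply, hq.symm, hv y hy, zero_smul]⟩

variable [FiniteDimensional L V]

theorem perp_perp_le (hq : IsForm q) (W : Submodule L V) : perp q (perp q W) ≤ W := by
  intro v hv
  by_contra h
  obtain ⟨f, hf, hfW⟩ := Submodule.exists_dual_map_eq_bot_of_notMem h inferInstance
  apply hf
  obtain ⟨u, rfl⟩ := hq.eqv.surjective f
  rw [hq.eqv_apply, hq.symm]
  apply hv
  intro w hw
  have : q u w ∈ Submodule.map (hq.eqv u) W := ⟨w, hw, rfl⟩
  rw [hfW] at this
  exact (Submodule.mem_bot L).mp this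

theorem exists_adj (hq : IsForm q) (A : End L V) : ∃ A', IsAdj q A A' := by
  obtain ⟨D, hD⟩ := hq.exists_end (q.compl₂ A)
  refine ⟨D, fun u v => ?_⟩
  have h1 := hD v u
  rw [LinearMap.compl₂_apply] at h1
  rw [hq.symm u, h1, hq.symm]

/-- the flip -/
theorem adj_mem_Tn (hq : IsForm q) {X Y : Submodule L V} {T T' : End L V} (h : IsAdj q T T')
    (hT : T ∈ Tn q X Y) : T' ∈ Tn q Y X := by
  refine ⟨fun v => perp_perp_le hq Y fun w hw => ?_, fun v hv => ?_⟩
  · rw [hq.symm, ← h, hT.2 w hw, map_zero, LinearMap.zero_apply]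
  · refine hq.nondeg _ fun w => ?_
    rw [hq.symm, ← h, hq.symm]
    exact hv _ (hT.1 w)

theorem adj_mem_Tn_iff (hq : IsForm q) {X Y : Submodule L V} {T T' : End L V}
    (h : IsAdj q T T') : T ∈ Tn q X Y ↔ T' ∈ Tn q Y X :=
  ⟨adj_mem_Tn hq h, adj_mem_Tn hq (h.symm hq)⟩

/-- a self adjoint endomorphism with image in `W` is a tensor in `W ⊗ W` -/
theorem mem_Tn_of_SA (hq : IsForm q) {X : Submodule L V} {T : End L V} (h : IsSA q T)
    (hT : ∀ v, T v ∈ X) : T ∈ Tn q X X :=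
  ⟨hT, fun v hv => hq.nondeg _ fun w => by rw [h]; exact hv _ (hT w)⟩

/-- a skew endomorphism with image in `W` is a tensor in `W ⊗ W` -/
theorem mem_Tn_of_Sk (hq : IsForm q) {X : Submodule L V} {T : End L V} (h : IsSk q T)
    (hT : ∀ v, T v ∈ X) : T ∈ Tn q X X :=
  ⟨hT, fun v hv => hq.nondeg _ fun w => by rw [h, hv _ (hT w), neg_zero]⟩

end tensors

section solve

variable {L V : Type*} [Field L] [AddCommGroup V] [Module L V]

/-- `e` is a self adjoint projection of `W` modulo `I` -/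
structure Prj (q : V →ₗ[L] V →ₗ[L] L) (W I : Submodule L V) (e : End L V) : Prop where
  sa : IsSA q e
  mem : ∀ v, e v ∈ W
  ker : ∀ i ∈ I, e i = 0
  sub : ∀ w ∈ W, w - e w ∈ I

variable [FiniteDimensional L V] {q : V →ₗ[L] V →ₗ[L] L} {W I : Submodule L V} {e : End L V}

/-- the tensors in `W ⊗ W` mapping `W` to `I` are those in `I ⊗ W + W ⊗ I` -/
theorem Prj.split (hq : IsForm q) (he : Prj q W I e) {T : End L V}
    (hT : T ∈ Tn q W W) (hTI : ∀ w ∈ W, T w ∈ I) :
    (1 - e) * T ∈ Tn q I W ∧ e * T * (1 - e) ∈ Tn q W I ∧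
      T = (1 - e) * T + e * T * (1 - e) := by
  have h1 : IsAdj q (1 - e) (1 - e) := IsAdj.one.sub (IsAdj.of_SA he.sa)
  have h2 : ∀ w ∈ W, (1 - e : End L V) w ∈ I := fun w hw => he.sub w hw
  refine ⟨mul_mem_Tn h2 hT, mem_mul_Tn h1 h2 (mul_mem_Tn (fun x _ => he.mem x) hT), ?_⟩
  have h3 : e * T * e = 0 := by
    ext v
    exact he.ker _ (hTI _ (he.mem v))
  rw [sub_mul, mul_sub, one_mul, mul_one, h3, sub_zero]
  abel

theorem Prj.mem_sup (hq : IsForm q) (he : Prj q W I e) {T : End L V}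
    (hT : T ∈ Tn q W W) (hTI : ∀ w ∈ W, T w ∈ I) : T ∈ Tn q I W ⊔ Tn q W I := by
  obtain ⟨h1, h2, h3⟩ := he.split hq hT hTI
  rw [h3]
  exact Submodule.add_mem_sup h1 h2

omit [FiniteDimensional L V] in
/-- the converse of `Prj.mem_sup` -/
theorem maps_of_sup (hIW : I ≤ W) (hI : I ≤ perp q W) (hq : IsForm q) {T : End L V}
    (hT : T ∈ Tn q I W ⊔ Tn q W I) : T ∈ Tn q W W ∧ ∀ w ∈ W, T w ∈ I := by
  obtain ⟨A, hA, B, hB, rfl⟩ := Submodule.mem_sup.mp hT
  refine ⟨add_mem (Tn_mono hIW le_rfl hA) (Tn_mono le_rfl hIW hB), fun w hw => ?_⟩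
  have h1 : B w = 0 := hB.2 w fun i hi => by rw [hq.symm]; exact hI hi w hw
  rw [LinearMap.add_apply, h1, add_zero]
  exact hA.1 w

/-- skew tensors -/
theorem Prj.split_sk (h2 : (2 : L) ≠ 0) (hq : IsForm q) (he : Prj q W I e) {K : End L V}
    (hK : IsSk q K) (hKW : ∀ v, K v ∈ W) (hKI : ∀ w ∈ W, K w ∈ I) :
    ∃ k ∈ Tn q I W, ∃ k' ∈ Tn q W I, IsAdj q k k' ∧ K = k - k' := by
  have hKT := mem_Tn_of_Sk hq hK hKW
  have h1 : IsAdj q (1 - e) (1 - e) := IsAdj.one.sub (IsAdj.of_SA he.sa)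
  have h3 : IsAdj q e e := IsAdj.of_SA he.sa
  have h4 : IsAdj q K (-K) := IsAdj.of_Sk hK
  have h5 : ∀ w ∈ W, (1 - e : End L V) w ∈ I := fun w hw => he.sub w hw
  have h6 : e * K * e = 0 := by
    ext v
    exact he.ker _ (hKI _ (he.mem v))
  set k : End L V := (1 - e) * K * e + (2 : L)⁻¹ • ((1 - e) * K * (1 - e)) with hk
  set k' : End L V := e * ((-K) * (1 - e)) + (2 : L)⁻¹ • ((1 - e) * ((-K) * (1 - e))) with hk'
  have hadj : IsAdj q k k' := ((h1.mul h4).mul h3).add (((h1.mul h4).mul h1).smul _)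
  have hkm : k ∈ Tn q I W := by
    refine add_mem (mem_mul_Tn h3 (fun w _ => he.mem w) (mul_mem_Tn h5 hKT))
      (Submodule.smul_mem _ _ ?_)
    refine mem_mul_Tn h1 (fun w hw => W.sub_mem hw (he.mem w)) (mul_mem_Tn h5 hKT)
  refine ⟨k, hkm, k', adj_mem_Tn hq hadj hkm, hadj, ?_⟩
  have h7 : (2 : L)⁻¹ • ((1 - e) * K * (1 - e)) - (2 : L)⁻¹ • ((1 - e) * ((-K) * (1 - e))) =
      (1 - e) * K * (1 - e) := by
    rw [← smul_sub]
    have : (1 - e) * K * (1 - e) - (1 - e) * ((-K) * (1 - e)) =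
        (2 : L) • ((1 - e) * K * (1 - e)) := by
      rw [two_smul]; noncomm_ring
    rw [this, smul_smul, inv_mul_cancel₀ h2, one_smul]
  have h8 : k - k' = (1 - e) * K * e - e * ((-K) * (1 - e)) +
      ((2 : L)⁻¹ • ((1 - e) * K * (1 - e)) - (2 : L)⁻¹ • ((1 - e) * ((-K) * (1 - e)))) := by
    rw [hk, hk']; abel
  rw [h8, h7]
  have h9 : (1 - e) * K * e - e * ((-K) * (1 - e)) + (1 - e) * K * (1 - e) = K - e * K * e := by
    noncomm_ring
  rw [h9, h6, sub_zero]

/-- self adjoint tensors -/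
theorem Prj.split_sa (h2 : (2 : L) ≠ 0) (hq : IsForm q) (he : Prj q W I e) {K : End L V}
    (hK : IsSA q K) (hKW : ∀ v, K v ∈ W) (hKI : ∀ w ∈ W, K w ∈ I) :
    ∃ k ∈ Tn q I W, ∃ k' ∈ Tn q W I, IsAdj q k k' ∧ K = k + k' := by
  have hKT := mem_Tn_of_SA hq hK hKW
  have h1 : IsAdj q (1 - e) (1 - e) := IsAdj.one.sub (IsAdj.of_SA he.sa)
  have h3 : IsAdj q e e := IsAdj.of_SA he.sa
  have h4 : IsAdj q K K := IsAdj.of_SA hK
  have h5 : ∀ w ∈ W, (1 - e : End L V) w ∈ I := fun w hw => he.sub w hw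
  have h6 : e * K * e = 0 := by
    ext v
    exact he.ker _ (hKI _ (he.mem v))
  set k : End L V := (1 - e) * K * e + (2 : L)⁻¹ • ((1 - e) * K * (1 - e)) with hk
  set k' : End L V := e * (K * (1 - e)) + (2 : L)⁻¹ • ((1 - e) * (K * (1 - e))) with hk'
  have hadj : IsAdj q k k' := ((h1.mul h4).mul h3).add (((h1.mul h4).mul h1).smul _)
  have hkm : k ∈ Tn q I W := by
    refine add_mem (mem_mul_Tn h3 (fun w _ => he.mem w) (mul_mem_Tn h5 hKT))
      (Submodule.smul_mem _ _ ?_)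
    refine mem_mul_Tn h1 (fun w hw => W.sub_mem hw (he.mem w)) (mul_mem_Tn h5 hKT)
  refine ⟨k, hkm, k', adj_mem_Tn hq hadj hkm, hadj, ?_⟩
  have h7 : (2 : L)⁻¹ • ((1 - e) * K * (1 - e)) + (2 : L)⁻¹ • ((1 - e) * (K * (1 - e))) =
      (1 - e) * K * (1 - e) := by
    rw [← smul_add]
    have : (1 - e) * K * (1 - e) + (1 - e) * (K * (1 - e)) =
        (2 : L) • ((1 - e) * K * (1 - e)) := by
      rw [two_smul]; noncomm_ring
    rw [this, smul_smul, inv_mul_cancel₀ h2, one_smul]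
  have h8 : k + k' = (1 - e) * K * e + e * (K * (1 - e)) +
      ((2 : L)⁻¹ • ((1 - e) * K * (1 - e)) + (2 : L)⁻¹ • ((1 - e) * (K * (1 - e)))) := by
    rw [hk, hk']; abel
  rw [h8, h7]
  have h9 : (1 - e) * K * e + e * (K * (1 - e)) + (1 - e) * K * (1 - e) = K - e * K * e := by
    noncomm_ring
  rw [h9, h6, sub_zero]

variable {S : Fin 3 → End L V} {m : ℕ}

/-- solving in `I ⊗ W` -/
theorem exists_solve (hq : IsForm q) (hS : ∀ a, IsSA q (S a)) (hW : st S W = W)
    (hI : st S I ≤ I) (hm : (st S)^[m] I = ⊥) {K : End L V} (hK : K ∈ Tn q I W) :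
    ∃ b : Fin 3 → End L V, (∀ a, b a ∈ Tn q I W) ∧ ∑ a, (S a * b a - b a * S a) = K := by
  obtain ⟨E, h1, h2, h3⟩ := exists_tail1 hq hS hW m I hI hm K hK.1 hK.2
  exact ⟨E, fun a => ⟨h1 a, h2 a⟩, h3⟩

/-- `∑ [S a, b a] = K` for skew `K ∈ I ∧ W`, with `b a ∈ I ⊙ W` -/
theorem exists_solve_sk (h2 : (2 : L) ≠ 0) (hq : IsForm q) (hS : ∀ a, IsSA q (S a))
    (hW : st S W = W) (hI : st S I ≤ I) (hm : (st S)^[m] I = ⊥) (he : Prj q W I e)
    {K : End L V} (hK : IsSk q K) (hKW : ∀ v, K v ∈ W) (hKI : ∀ w ∈ W, K w ∈ I) :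
    ∃ c c' : Fin 3 → End L V, (∀ a, c a ∈ Tn q I W) ∧ (∀ a, c' a ∈ Tn q W I) ∧
      (∀ a, IsAdj q (c a) (c' a)) ∧ (∀ a, IsSA q (c a + c' a)) ∧
      ∑ a, (S a * (c a + c' a) - (c a + c' a) * S a) = K := by
  obtain ⟨k, hk, k', -, hkk, rfl⟩ := he.split_sk h2 hq hK hKW hKI
  obtain ⟨c, hc, hcs⟩ := exists_solve hq hS hW hI hm hk
  choose c' hc' using fun a => exists_adj hq (c a)
  refine ⟨c, c', hc, fun a => adj_mem_Tn hq (hc' a) (hc a), hc', fun a => ?_, ?_⟩
  · have h3 : IsAdj q (c a + c' a) (c' a + c a) := (hc' a).add ((hc' a).symm hq)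
    rw [add_comm (c' a)] at h3
    exact h3
  · have h4 : IsAdj q (∑ a, (S a * c a - c a * S a)) (∑ a, (c' a * S a - S a * c' a)) :=
      IsAdj.sum _ fun a _ => (IsAdj.mul (IsAdj.of_SA (hS a)) (hc' a)).sub
        ((hc' a).mul (IsAdj.of_SA (hS a)))
    rw [hcs] at h4
    rw [hkk.unique hq h4]
    rw [← hcs, ← Finset.sum_sub_distrib]
    refine Finset.sum_congr rfl fun a _ => ?_
    noncomm_ring

/-- `∑ [S a, b a] = K` for self adjoint `K ∈ I ⊙ W`, with `b a ∈ I ∧ W` -/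
theorem exists_solve_sa (h2 : (2 : L) ≠ 0) (hq : IsForm q) (hS : ∀ a, IsSA q (S a))
    (hW : st S W = W) (hI : st S I ≤ I) (hm : (st S)^[m] I = ⊥) (he : Prj q W I e)
    {K : End L V} (hK : IsSA q K) (hKW : ∀ v, K v ∈ W) (hKI : ∀ w ∈ W, K w ∈ I) :
    ∃ c c' : Fin 3 → End L V, (∀ a, c a ∈ Tn q I W) ∧ (∀ a, c' a ∈ Tn q W I) ∧
      (∀ a, IsAdj q (c a) (c' a)) ∧ (∀ a, IsSk q (c a - c' a)) ∧
      ∑ a, (S a * (c a - c' a) - (c a - c' a) * S a) = K := by
  obtain ⟨k, hk, k', -, hkk, rfl⟩ := he.split_sa h2 hq hK hKW hKI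
  obtain ⟨c, hc, hcs⟩ := exists_solve hq hS hW hI hm hk
  choose c' hc' using fun a => exists_adj hq (c a)
  refine ⟨c, c', hc, fun a => adj_mem_Tn hq (hc' a) (hc a), hc', fun a => ?_, ?_⟩
  · have h3 : IsAdj q (c a - c' a) (c' a - c a) := (hc' a).sub ((hc' a).symm hq)
    intro u v
    rw [h3 u v, ← neg_sub (c a), LinearMap.neg_apply, map_neg]
  · have h4 : IsAdj q (∑ a, (S a * c a - c a * S a)) (∑ a, (c' a * S a - S a * c' a)) :=
      IsAdj.sum _ fun a _ => (IsAdj.mul (IsAdj.of_SA (hS a)) (hc' a)).sub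
        ((hc' a).mul (IsAdj.of_SA (hS a)))
    rw [hcs] at h4
    rw [hkk.unique hq h4]
    rw [← hcs, ← Finset.sum_add_distrib]
    refine Finset.sum_congr rfl fun a _ => ?_
    noncomm_ring

/-- the family with the tensor `T` at the arm `s`, plus `b` -/
def crr (s : Fin 3) (T : End L V) (b : Fin 3 → End L V) : Fin 3 → End L V :=
  fun a => (if a = s then T else 0) + b a

omit [FiniteDimensional L V] in
theorem crr_same (s : Fin 3) (T : End L V) (b : Fin 3 → End L V) : crr s T b s = T + b s := by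
  rw [crr, if_pos rfl]

omit [FiniteDimensional L V] in
theorem crr_ne {s a : Fin 3} (h : a ≠ s) (T : End L V) (b : Fin 3 → End L V) :
    crr s T b a = b a := by
  rw [crr, if_neg h, zero_add]

/-- the properties of the corrected family -/
structure Corr (q : V →ₗ[L] V →ₗ[L] L) (S : Fin 3 → End L V) (W I : Submodule L V) (s : Fin 3)
    (T : End L V) (β : Fin 3 → End L V) : Prop where
  mem : ∀ a, β a ∈ Tn q W W
  comm : ∀ a, ∀ w ∈ W, S a (β a w) - β a (S a w) ∈ I
  sum : ∑ a, (S a * β a - β a * S a) = 0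
  same : β s - T ∈ Tn q I W ⊔ Tn q W I
  ne : ∀ a, a ≠ s → β a ∈ Tn q I W ⊔ Tn q W I
  same' : ∀ w ∈ W, β s w - T w ∈ I
  ne' : ∀ a, a ≠ s → ∀ w ∈ W, β a w ∈ I

omit [FiniteDimensional L V] in
theorem corr_crr (hq : IsForm q) (hW : st S W = W) (hI : st S I ≤ I) (hIW : I ≤ W)
    (hIp : I ≤ perp q W) (s : Fin 3) {T : End L V} (hT : T ∈ Tn q W W)
    (hcomm : ∀ w ∈ W, S s (T w) - T (S s w) ∈ I) {b : Fin 3 → End L V}
    (hb : ∀ a, b a ∈ Tn q I W ⊔ Tn q W I)
    (hsum : ∑ a, (S a * b a - b a * S a) = -(S s * T - T * S s)) :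
    Corr q S W I s T (crr s T b) := by
  have hSW : ∀ a, ∀ w ∈ W, S a w ∈ W := fun a w hw => by
    have := mem_st (S := S) a hw
    rwa [hW] at this
  have hSI : ∀ a, ∀ w ∈ I, S a w ∈ I := fun a w hw => hI (mem_st (S := S) a hw)
  have hbW := fun a => maps_of_sup hIW hIp hq (hb a)
  have hbc : ∀ a, ∀ w ∈ W, S a (b a w) - b a (S a w) ∈ I := fun a w hw =>
    I.sub_mem (hSI a _ ((hbW a).2 w hw)) ((hbW a).2 _ (hSW a w hw))
  refine ⟨fun a => ?_, fun a w hw => ?_, ?_, ?_, fun a h => ?_, fun w hw => ?_,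
    fun a h w hw => ?_⟩
  · by_cases h : a = s
    · subst h
      rw [crr_same]
      exact add_mem hT (hbW a).1
    · rw [crr_ne h]
      exact (hbW a).1
  · by_cases h : a = s
    · subst h
      rw [crr_same]
      have h4 : S a ((T + b a) w) - (T + b a) (S a w) =
          (S a (T w) - T (S a w)) + (S a (b a w) - b a (S a w)) := by
        rw [LinearMap.add_apply, LinearMap.add_apply, map_add]; abel
      rw [h4]
      exact I.add_mem (hcomm w hw) (hbc a w hw)
    · rw [crr_ne h]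
      exact hbc a w hw
  · have h3 : ∀ a, S a * crr s T b a - crr s T b a * S a =
        (if a = s then S s * T - T * S s else 0) + (S a * b a - b a * S a) := fun a => by
      by_cases h : a = s
      · subst h
        rw [crr_same, if_pos rfl]; noncomm_ring
      · rw [crr_ne h, if_neg h, zero_add]
    rw [Finset.sum_congr rfl fun a _ => h3 a, Finset.sum_add_distrib, hsum,
      Finset.sum_ite_eq' Finset.univ s, if_pos (Finset.mem_univ s)]
    abel
  · rw [crr_same, add_sub_cancel_left]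
    exact hb s
  · rw [crr_ne h]
    exact hb a
  · rw [crr_same, LinearMap.add_apply, add_sub_cancel_left]
    exact (hbW s).2 w hw
  · rw [crr_ne h]
    exact (hbW a).2 w hw

/-- **Corrections, self adjoint case**: a self adjoint tensor `T ∈ W ⊗ W` commuting modulo `I` with
`S s` is the arm `s` part of a family `β` with `∑ [S a, β a] = 0`, up to `I ⊙ W`. -/
theorem exists_corr_sa (h2 : (2 : L) ≠ 0) (hq : IsForm q) (hS : ∀ a, IsSA q (S a))
    (hW : st S W = W) (hI : st S I ≤ I) (hm : (st S)^[m] I = ⊥) (hIW : I ≤ W)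
    (hIp : I ≤ perp q W) (he : Prj q W I e) (s : Fin 3)
    {T : End L V} (hT : IsSA q T) (hTW : ∀ v, T v ∈ W)
    (hcomm : ∀ w ∈ W, S s (T w) - T (S s w) ∈ I) :
    ∃ β : Fin 3 → End L V, (∀ a, IsSA q (β a)) ∧ Corr q S W I s T β := by
  have hSW : ∀ a, ∀ w ∈ W, S a w ∈ W := fun a w hw => by
    have := mem_st (S := S) a hw
    rwa [hW] at this
  have hK : IsSk q (-(S s * T - T * S s)) := by
    have h3 : IsAdj q (-(S s * T - T * S s)) (-(T * S s - S s * T)) :=
      ((IsAdj.mul (IsAdj.of_SA (hS s)) (IsAdj.of_SA hT)).sub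
        (IsAdj.mul (IsAdj.of_SA hT) (IsAdj.of_SA (hS s)))).neg
    intro u v
    rw [h3 u v, neg_sub, LinearMap.neg_apply, map_neg, neg_neg]
  obtain ⟨c, c', hc, hc', hcc, hsa, hsum⟩ := exists_solve_sk h2 hq hS hW hI hm he hK
    (fun v => by
      rw [LinearMap.neg_apply]
      exact W.neg_mem (W.sub_mem (hSW s _ (hTW v)) (hTW _)))
    (fun w hw => by
      rw [LinearMap.neg_apply]
      exact I.neg_mem (hcomm w hw))
  refine ⟨crr s T fun a => c a + c' a, fun a => ?_, corr_crr hq hW hI hIW hIp s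
    (mem_Tn_of_SA hq hT hTW) hcomm (fun a => Submodule.add_mem_sup (hc a) (hc' a)) hsum⟩
  by_cases h : a = s
  · subst h
    rw [crr_same]
    exact (IsAdj.of_SA hT).add (IsAdj.of_SA (hsa a))
  · rw [crr_ne h]
    exact hsa a

/-- **Corrections, skew case** -/
theorem exists_corr_sk (h2 : (2 : L) ≠ 0) (hq : IsForm q) (hS : ∀ a, IsSA q (S a))
    (hW : st S W = W) (hI : st S I ≤ I) (hm : (st S)^[m] I = ⊥) (hIW : I ≤ W)
    (hIp : I ≤ perp q W) (he : Prj q W I e) (s : Fin 3)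
    {T : End L V} (hT : IsSk q T) (hTW : ∀ v, T v ∈ W)
    (hcomm : ∀ w ∈ W, S s (T w) - T (S s w) ∈ I) :
    ∃ Y : Fin 3 → End L V, (∀ a, IsSk q (Y a)) ∧ Corr q S W I s T Y := by
  have hSW : ∀ a, ∀ w ∈ W, S a w ∈ W := fun a w hw => by
    have := mem_st (S := S) a hw
    rwa [hW] at this
  have hK : IsSA q (-(S s * T - T * S s)) := by
    have h3 : IsAdj q (-(S s * T - T * S s)) (-((-T) * S s - S s * (-T))) :=
      ((IsAdj.mul (IsAdj.of_SA (hS s)) (IsAdj.of_Sk hT)).sub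
        (IsAdj.mul (IsAdj.of_Sk hT) (IsAdj.of_SA (hS s)))).neg
    have h4 : -((-T) * S s - S s * (-T)) = -(S s * T - T * S s) := by noncomm_ring
    rw [h4] at h3
    exact h3
  obtain ⟨c, c', hc, hc', hcc, hsk, hsum⟩ := exists_solve_sa h2 hq hS hW hI hm he hK
    (fun v => by
      rw [LinearMap.neg_apply]
      exact W.neg_mem (W.sub_mem (hSW s _ (hTW v)) (hTW _)))
    (fun w hw => by
      rw [LinearMap.neg_apply]
      exact I.neg_mem (hcomm w hw))
  refine ⟨crr s T fun a => c a - c' a, fun a => ?_, corr_crr hq hW hI hIW hIp s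
    (mem_Tn_of_Sk hq hT hTW) hcomm (fun a => by
      rw [sub_eq_add_neg]
      exact Submodule.add_mem_sup (hc a) (neg_mem (hc' a))) hsum⟩
  by_cases h : a = s
  · subst h
    rw [crr_same]
    intro u v
    rw [LinearMap.add_apply, LinearMap.add_apply, map_add, map_add, LinearMap.add_apply, hT u v,
      hsk a u v]
    ring
  · rw [crr_ne h]
    exact hsk a

end solve

section core

variable {L V : Type*} [Field L] [AddCommGroup V] [Module L V] [FiniteDimensional L V]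
  {q : V →ₗ[L] V →ₗ[L] L} {S : Fin 3 → End L V} (C : Core q S)

theorem st_W : st S C.W = C.W := C.hW

/-- words of the length of the core kill the radical -/
theorem st_iter_I (hq : IsForm q) (hS : ∀ a, IsSA q (S a)) : (st S)^[C.N] C.I = ⊥ := by
  have key : ∀ (n : ℕ) (X : Submodule L V), (∀ v ∈ X, ∀ w ∈ words S n, q v w = 0) →
      (st S)^[n] X ≤ ⊥ := by
    intro n
    induction n with
    | zero =>
      intro X hX v hv
      rw [Function.iterate_zero, id_eq] at hv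
      rw [Submodule.mem_bot]
      exact hq.nondeg v fun w => hX v hv w trivial
    | succ n ih =>
      intro X hX
      rw [Function.iterate_succ_apply]
      apply ih
      intro v hv w hw
      have h1 : st S X ≤ perp q (words S n) := st_le fun a x hx w' hw' => by
        rw [hS]
        refine hX x hx _ ?_
        rw [words_succ]
        exact Submodule.mem_iSup_of_mem a (Submodule.mem_map_of_mem hw')
      exact h1 hv w hw
  rw [eq_bot_iff]
  apply key
  intro v hv w hw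
  rw [← C.hN] at hw
  exact hv.2 w hw

theorem st_I (hq : IsForm q) (hS : ∀ a, IsSA q (S a)) : st S C.I ≤ C.I :=
  st_le fun a v hv => ⟨C.map_W hv.1, fun w hw => by rw [hS]; exact hv.2 _ (C.map_W hw)⟩

/-- the projection of the core -/
noncomputable def prj (hq : IsForm q) : End L V := C.V1.subtype ∘ₗ C.P hq

theorem prj_spec (hq : IsForm q) : Prj q C.W C.I (prj C hq) where
  sa := by
    intro u v
    show q (C.P hq u : V) v = q u (C.P hq v : V)
    have h1 := C.q_P hq u (C.P hq v)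
    have h2 := C.q_P hq v (C.P hq u)
    rw [← h1, hq.symm _ v, ← h2, (C.isForm hq).symm]
  mem := fun v => C.V1_le (C.P hq v).2
  ker := fun i hi => by
    show ((C.P hq i : C.V1) : V) = 0
    rw [C.P_eq_zero hq hi.2, Submodule.coe_zero]
  sub := fun w hw => C.sub_P_mem_I hq hw

/-- the lift of an endomorphism of the core -/
noncomputable def lft (hq : IsForm q) (h : End L C.V1) : End L V :=
  C.V1.subtype ∘ₗ h ∘ₗ C.P hq

theorem lft_apply (hq : IsForm q) (h : End L C.V1) (v : V) : lft C hq h v = h (C.P hq v) := rfl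

theorem lft_coe (hq : IsForm q) (h : End L C.V1) (v : C.V1) : lft C hq h v = h v := by
  rw [lft_apply, C.P_coe]

theorem lft_mem (hq : IsForm q) (h : End L C.V1) : lft C hq h ∈ Tn q C.W C.W :=
  ⟨fun v => C.V1_le (h _).2, fun v hv => by
    rw [lft_apply, C.P_eq_zero hq hv, map_zero, Submodule.coe_zero]⟩

theorem P_lft (hq : IsForm q) (h : End L C.V1) (v : V) : C.P hq (lft C hq h v) = h (C.P hq v) := by
  rw [lft_apply, C.P_coe]

theorem lft_adj (hq : IsForm q) {h h' : End L C.V1} (hh : IsAdj C.q1 h h') :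
    IsAdj q (lft C hq h) (lft C hq h') := by
  intro u v
  rw [lft_apply, lft_apply, hq.symm, ← C.q_P hq v, (C.isForm hq).symm, hh, C.q_P hq u]

theorem lft_SA (hq : IsForm q) {h : End L C.V1} (hh : IsSA C.q1 h) : IsSA q (lft C hq h) :=
  lft_adj C hq (h' := h) hh

theorem lft_Sk (hq : IsForm q) {h : End L C.V1} (hh : IsSk C.q1 h) : IsSk q (lft C hq h) := by
  intro u v
  have h1 := lft_adj C hq (IsAdj.of_Sk hh) u v
  have h2 : lft C hq (-h) v = - lft C hq h v := by
    rw [lft_apply, lft_apply, LinearMap.neg_apply, Submodule.coe_neg]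
  rw [h1, h2, map_neg]

theorem lft_comm (hq : IsForm q) (hS : ∀ a, IsSA q (S a)) {h : End L C.V1} {s : Fin 3}
    (hc : h * C.S1 hq s = C.S1 hq s * h) {w : V} (hw : w ∈ C.W) :
    S s (lft C hq h w) - lft C hq h (S s w) ∈ C.I := by
  have h1 : S s (lft C hq h w) - lft C hq h (S s w) ∈ C.W :=
    C.W.sub_mem (C.map_W ((lft_mem C hq h).1 w)) ((lft_mem C hq h).1 _)
  have h2 := C.sub_P_mem_I hq h1
  have hwI : w ∈ perp q C.I := fun i hi => by rw [hq.symm]; exact hi.2 w hw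
  have h3 : C.P hq (S s (lft C hq h w) - lft C hq h (S s w)) = 0 := by
    rw [map_sub, P_lft, C.P_S hq hS s hwI, C.P_S hq hS s
      (fun i hi => C.I_ortho_W hq hi ((lft_mem C hq h).1 w)), P_lft, sub_eq_zero]
    exact (LinearMap.congr_fun hc (C.P hq w)).symm
  rw [h3, Submodule.coe_zero, sub_zero] at h2
  exact h2

/-- two tensors with the same image on the core differ by `I ⊗ W + W ⊗ I` -/
theorem sub_lft_mem (hq : IsForm q) {T : End L V} (hT : T ∈ Tn q C.W C.W) {h : End L C.V1}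
    (hh : ∀ v ∈ C.W, C.P hq (T v) = h (C.P hq v)) :
    T - lft C hq h ∈ Tn q C.I C.W ⊔ Tn q C.W C.I := by
  refine (prj_spec C hq).mem_sup hq (sub_mem hT (lft_mem C hq h)) fun w hw => ?_
  have h1 : (T - lft C hq h) w ∈ C.W := C.W.sub_mem (hT.1 w) ((lft_mem C hq h).1 w)
  have h2 := C.sub_P_mem_I hq h1
  have h3 : C.P hq ((T - lft C hq h) w) = 0 := by
    rw [LinearMap.sub_apply, map_sub, hh w hw, P_lft, sub_self]
  rw [h3, Submodule.coe_zero, sub_zero] at h2
  exact h2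

end core

end Vale.Agent.P182.H818
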