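import Vale.Agent.P182.H533.Core
import Vale.Agent.P182.H388.Vdm

/-!
# Chains of rank one tensors

Tensors `p ⊗ q` are the endomorphisms `v ↦ q(q, v) p`.  Given `a'`, `b'`, an arm `s` and `p`, the
main tensors `S_s^k a' ⊗ S_s^{p-1-k} b'` are continued on both sides by tails with a factor in
the submodule generated by `S_s^p a'`, resp. `S_s^p b'`, to a finite chain `T 0, T 1, …` with
`∑ₐ Sₐ Tⁿₐ = ∑ₐ Tⁿ⁺¹ₐ Sₐ`.
-/

namespace Vale.Agent.P182.H818

open Module Vale.Agent.P182.H533

universe u v

variable {L : Type u} {V : Type v} [Field L] [AddCommGroup V] [Module L V]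

/-- the tensor `a ⊗ b` as an endomorphism -/
def rk (q : V →ₗ[L] V →ₗ[L] L) (a b : V) : End L V := (q b).smulRight a

theorem rk_apply (q : V →ₗ[L] V →ₗ[L] L) (a b v : V) : rk q a b v = q b v • a := rfl

theorem rk_zero_left (q : V →ₗ[L] V →ₗ[L] L) (b : V) : rk q 0 b = 0 :=
  LinearMap.ext fun v => by rw [rk_apply, smul_zero, LinearMap.zero_apply]

theorem rk_zero_right (q : V →ₗ[L] V →ₗ[L] L) (a : V) : rk q a 0 = 0 :=
  LinearMap.ext fun v => by
    rw [rk_apply, map_zero, LinearMap.zero_apply, zero_smul, LinearMap.zero_apply]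

theorem rk_add_left (q : V →ₗ[L] V →ₗ[L] L) (a a' b : V) :
    rk q (a + a') b = rk q a b + rk q a' b :=
  LinearMap.ext fun v => by
    rw [LinearMap.add_apply, rk_apply, rk_apply, rk_apply, smul_add]

theorem rk_add_right (q : V →ₗ[L] V →ₗ[L] L) (a b b' : V) :
    rk q a (b + b') = rk q a b + rk q a b' :=
  LinearMap.ext fun v => by
    rw [LinearMap.add_apply, rk_apply, rk_apply, rk_apply, map_add, LinearMap.add_apply, add_smul]

theorem rk_smul_left (q : V →ₗ[L] V →ₗ[L] L) (c : L) (a b : V) :
    rk q (c • a) b = c • rk q a b :=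
  LinearMap.ext fun v => by
    rw [LinearMap.smul_apply, rk_apply, rk_apply, smul_comm]

theorem rk_smul_right (q : V →ₗ[L] V →ₗ[L] L) (c : L) (a b : V) :
    rk q a (c • b) = c • rk q a b :=
  LinearMap.ext fun v => by
    rw [LinearMap.smul_apply, rk_apply, rk_apply, map_smul, LinearMap.smul_apply, smul_eq_mul,
      mul_smul]

/-- `a ↦ a ⊗ b` as a linear map -/
def rkL (q : V →ₗ[L] V →ₗ[L] L) (b : V) : V →ₗ[L] End L V where
  toFun a := rk q a b
  map_add' a a' := rk_add_left q a a' b
  map_smul' c a := rk_smul_left q c a b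

/-- `b ↦ a ⊗ b` as a linear map -/
def rkR (q : V →ₗ[L] V →ₗ[L] L) (a : V) : V →ₗ[L] End L V where
  toFun b := rk q a b
  map_add' b b' := rk_add_right q a b b'
  map_smul' c b := rk_smul_right q c a b

theorem rkL_apply (q : V →ₗ[L] V →ₗ[L] L) (a b : V) : rkL q b a = rk q a b := rfl

theorem rkR_apply (q : V →ₗ[L] V →ₗ[L] L) (a b : V) : rkR q a b = rk q a b := rfl

theorem rk_sum_left {κ : Type*} (q : V →ₗ[L] V →ₗ[L] L) (s : Finset κ) (f : κ → V) (b : V) :
    rk q (∑ i ∈ s, f i) b = ∑ i ∈ s, rk q (f i) b := by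
  rw [← rkL_apply, map_sum]; rfl

theorem rk_sum_right {κ : Type*} (q : V →ₗ[L] V →ₗ[L] L) (s : Finset κ) (a : V) (f : κ → V) :
    rk q a (∑ i ∈ s, f i) = ∑ i ∈ s, rk q a (f i) := by
  rw [← rkR_apply, map_sum]; rfl

theorem mul_rk (q : V →ₗ[L] V →ₗ[L] L) (T : End L V) (a b : V) : T * rk q a b = rk q (T a) b :=
  LinearMap.ext fun v => by
    rw [Module.End.mul_apply, rk_apply, rk_apply, map_smul]

theorem rk_mul {q : V →ₗ[L] V →ₗ[L] L} {T : End L V} (hT : IsSA q T) (a b : V) :
    rk q a b * T = rk q a (T b) :=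
  LinearMap.ext fun v => by
    rw [Module.End.mul_apply, rk_apply, rk_apply, hT]

/-! ### Trees -/

section tree

variable (S : Fin 3 → End L V) (U : Submodule L V)

/-- a tree of iterated preimages in `U` -/
structure Tr (z : List (Fin 3) → V) : Prop where
  mem : ∀ w, z w ∈ U
  eq : ∀ w, ∑ a, S a (z (w ++ [a])) = z w

variable {S U}

theorem Tr.root {z : List (Fin 3) → V} (h : Tr S U z) : ∑ a, S a (z [a]) = z [] := h.eq []

theorem Tr.child {z : List (Fin 3) → V} (h : Tr S U z) (b : Fin 3) :
    Tr S U fun w => z (b :: w) where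
  mem w := h.mem _
  eq w := h.eq (b :: w)

/-- every element of `U` is the root of a tree -/
theorem exists_tree (hU : ∀ v ∈ U, ∃ w : Fin 3 → V, (∀ a, w a ∈ U) ∧ ∑ a, S a (w a) = v)
    {v : V} (hv : v ∈ U) : ∃ z, Tr S U z ∧ z [] = v := by
  classical
  choose! c hc1 hc2 using hU
  let z : List (Fin 3) → V → V := fun w => List.rec (motive := fun _ => V → V) (fun v => v)
    (fun b _ ih v => ih (c v b)) w
  have h0 : ∀ v, z [] v = v := fun v => rfl
  have h1 : ∀ b w v, z (b :: w) v = z w (c v b) := fun b w v => rfl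
  have hm : ∀ w : List (Fin 3), ∀ v ∈ U, z w v ∈ U := by
    intro w
    induction w with
    | nil => intro v hv; rw [h0]; exact hv
    | cons b w ih => intro v hv; rw [h1]; exact ih _ (hc1 v hv b)
  refine ⟨fun w => z w v, ⟨fun w => hm w v hv, ?_⟩, rfl⟩
  intro w
  induction w generalizing v with
  | nil =>
    show ∑ a, S a (z [a] v) = z [] v
    rw [h0]
    exact hc2 v hv
  | cons b w ih =>
    show ∑ a, S a (z (b :: (w ++ [a])) v) = z (b :: w) v
    simp only [h1]
    exact ih (hc1 v hv b)

/-- the tree with one branch at the root -/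
def graft (S : Fin 3 → End L V) (c : Fin 3) (z : List (Fin 3) → V) : List (Fin 3) → V
  | [] => S c (z [])
  | a :: w => if a = c then z w else 0

theorem Tr.graft {z : List (Fin 3) → V} (h : Tr S U z) (hS : ∀ c, ∀ v ∈ U, S c v ∈ U)
    (c : Fin 3) : Tr S U (graft S c z) where
  mem w := by
    cases w with
    | nil => exact hS c _ (h.mem [])
    | cons a w =>
      show (if a = c then z w else 0) ∈ U
      split_ifs
      · exact h.mem w
      · exact Submodule.zero_mem _
  eq w := by
    cases w with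
    | nil =>
      show ∑ a, S a (if a = c then z [] else 0) = S c (z [])
      rw [Finset.sum_eq_single c]
      · rw [if_pos rfl]
      · intro a _ ha
        rw [if_neg ha, map_zero]
      · intro h; exact absurd (Finset.mem_univ _) h
    | cons a w =>
      show ∑ b, S b (if a = c then z (w ++ [b]) else 0) = if a = c then z w else 0
      split_ifs
      · exact h.eq w
      · simp

/-- iterated application, the head first -/
def wd (S : Fin 3 → End L V) : List (Fin 3) → End L V
  | [] => 1
  | c :: w => wd S w * S c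

theorem wd_nil : wd S [] = 1 := rfl

theorem wd_cons (c : Fin 3) (w : List (Fin 3)) (v : V) : wd S (c :: w) v = wd S w (S c v) := rfl

theorem wd_mem (hS : ∀ c, ∀ v ∈ U, S c v ∈ U) (w : List (Fin 3)) {v : V} (hv : v ∈ U) :
    wd S w v ∈ U := by
  induction w generalizing v with
  | nil => exact hv
  | cons c w ih => rw [wd_cons]; exact ih (hS c v hv)

end tree

/-! ### Tails -/

section tails

variable (q : V →ₗ[L] V →ₗ[L] L) (S : Fin 3 → End L V)

/-- left tails `∑ z_w ⊗ w v` -/
def LT : ℕ → (List (Fin 3) → V) → V → Fin 3 → End L V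
  | 0, z, v, a => rk q (z [a]) v
  | m + 1, z, v, a => ∑ b, LT m (fun w => z (b :: w)) (S b v) a

/-- right tails `∑ w v ⊗ y_w` -/
def RT : ℕ → (List (Fin 3) → V) → V → Fin 3 → End L V
  | 0, y, v, a => rk q v (y [a])
  | m + 1, y, v, a => ∑ b, RT m (fun w => y (b :: w)) (S b v) a

variable {q S}

theorem LT_zero_rel (hS : ∀ a, IsSA q (S a)) {U : Submodule L V} {z : List (Fin 3) → V}
    (hz : Tr S U z) (v : V) : ∑ a, S a * LT q S 0 z v a = rk q (z []) v := by
  have h1 : ∀ a, S a * LT q S 0 z v a = rk q (S a (z [a])) v := fun a => mul_rk q _ _ _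
  rw [Finset.sum_congr rfl fun a _ => h1 a, ← rk_sum_left, hz.root]

theorem LT_succ_rel (hS : ∀ a, IsSA q (S a)) {U : Submodule L V} (m : ℕ)
    {z : List (Fin 3) → V} (hz : Tr S U z) (v : V) :
    ∑ a, S a * LT q S (m + 1) z v a = ∑ a, LT q S m z v a * S a := by
  induction m generalizing z v with
  | zero =>
    have h1 : ∀ a, S a * LT q S 1 z v a =
        ∑ b, S a * LT q S 0 (fun w => z (b :: w)) (S b v) a := fun a => by
      rw [← Finset.mul_sum]; rfl
    rw [Finset.sum_congr rfl fun a _ => h1 a, Finset.sum_comm]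
    refine Finset.sum_congr rfl fun b _ => ?_
    rw [LT_zero_rel hS (hz.child b)]
    exact (rk_mul (hS b) _ _).symm
  | succ m ih =>
    have h1 : ∀ a, S a * LT q S (m + 1 + 1) z v a =
        ∑ b, S a * LT q S (m + 1) (fun w => z (b :: w)) (S b v) a := fun a => by
      rw [← Finset.mul_sum]; rfl
    have h2 : ∀ a, LT q S (m + 1) z v a * S a =
        ∑ b, LT q S m (fun w => z (b :: w)) (S b v) a * S a := fun a => by
      rw [← Finset.sum_mul]; rfl
    rw [Finset.sum_congr rfl fun a _ => h1 a, Finset.sum_comm,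
      Finset.sum_congr rfl fun a _ => h2 a]
    conv_rhs => rw [Finset.sum_comm]
    exact Finset.sum_congr rfl fun b _ => ih (hz.child b) (S b v)

theorem RT_zero_rel (hS : ∀ a, IsSA q (S a)) {U : Submodule L V} {y : List (Fin 3) → V}
    (hy : Tr S U y) (v : V) : ∑ a, RT q S 0 y v a * S a = rk q v (y []) := by
  have h1 : ∀ a, RT q S 0 y v a * S a = rk q v (S a (y [a])) := fun a => rk_mul (hS a) _ _
  rw [Finset.sum_congr rfl fun a _ => h1 a, ← rk_sum_right, hy.root]

theorem RT_succ_rel (hS : ∀ a, IsSA q (S a)) {U : Submodule L V} (m : ℕ)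
    {y : List (Fin 3) → V} (hy : Tr S U y) (v : V) :
    ∑ a, RT q S (m + 1) y v a * S a = ∑ a, S a * RT q S m y v a := by
  induction m generalizing y v with
  | zero =>
    have h1 : ∀ a, RT q S 1 y v a * S a =
        ∑ b, RT q S 0 (fun w => y (b :: w)) (S b v) a * S a := fun a => by
      rw [← Finset.sum_mul]; rfl
    rw [Finset.sum_congr rfl fun a _ => h1 a, Finset.sum_comm]
    refine Finset.sum_congr rfl fun b _ => ?_
    rw [RT_zero_rel hS (hy.child b)]
    exact (mul_rk q _ _ _).symm
  | succ m ih =>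
    have h1 : ∀ a, RT q S (m + 1 + 1) y v a * S a =
        ∑ b, RT q S (m + 1) (fun w => y (b :: w)) (S b v) a * S a := fun a => by
      rw [← Finset.sum_mul]; rfl
    have h2 : ∀ a, S a * RT q S (m + 1) y v a =
        ∑ b, S a * RT q S m (fun w => y (b :: w)) (S b v) a := fun a => by
      rw [← Finset.mul_sum]; rfl
    rw [Finset.sum_congr rfl fun a _ => h1 a, Finset.sum_comm,
      Finset.sum_congr rfl fun a _ => h2 a]
    conv_rhs => rw [Finset.sum_comm]
    exact Finset.sum_congr rfl fun b _ => ih (hy.child b) (S b v)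

theorem LT_eq_zero (m : ℕ) {z : List (Fin 3) → V} {v : V}
    (h : ∀ w : List (Fin 3), w.length = m → wd S w v = 0) (a : Fin 3) : LT q S m z v a = 0 := by
  induction m generalizing z v with
  | zero =>
    have h1 := h [] rfl
    rw [wd_nil, Module.End.one_apply] at h1
    show rk q (z [a]) v = 0
    rw [h1, rk_zero_right]
  | succ m ih =>
    show ∑ b, LT q S m (fun w => z (b :: w)) (S b v) a = 0
    exact Finset.sum_eq_zero fun b _ => ih fun w hw => by
      rw [← wd_cons]
      exact h (b :: w) (by rw [List.length_cons, hw])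

theorem RT_eq_zero (m : ℕ) {y : List (Fin 3) → V} {v : V}
    (h : ∀ w : List (Fin 3), w.length = m → wd S w v = 0) (a : Fin 3) : RT q S m y v a = 0 := by
  induction m generalizing y v with
  | zero =>
    have h1 := h [] rfl
    rw [wd_nil, Module.End.one_apply] at h1
    show rk q v (y [a]) = 0
    rw [h1, rk_zero_left]
  | succ m ih =>
    show ∑ b, RT q S m (fun w => y (b :: w)) (S b v) a = 0
    exact Finset.sum_eq_zero fun b _ => ih fun w hw => by
      rw [← wd_cons]
      exact h (b :: w) (by rw [List.length_cons, hw])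

/-- for every word `w`, every arm `b` and every `v₀ ∈ U` there is a tree whose left tail of
length `|w|` is `v₀ ⊗ w v` on the arm `b` only -/
theorem exists_path_left {U : Submodule L V}
    (hU : ∀ v ∈ U, ∃ w : Fin 3 → V, (∀ a, w a ∈ U) ∧ ∑ a, S a (w a) = v)
    (hS : ∀ c, ∀ v ∈ U, S c v ∈ U) (w : List (Fin 3)) (b : Fin 3) {v₀ : V} (hv : v₀ ∈ U) :
    ∃ z, Tr S U z ∧ ∀ v, LT q S w.length z v = Pi.single b (rk q v₀ (wd S w v)) := by
  induction w with
  | nil =>
    obtain ⟨z, hz, hz0⟩ := exists_tree hU hv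
    refine ⟨graft S b z, hz.graft hS b, fun v => ?_⟩
    funext a
    show rk q (if a = b then z [] else 0) v = _
    by_cases hab : a = b
    · subst hab
      rw [if_pos rfl, Pi.single_eq_same, hz0, wd_nil, Module.End.one_apply]
    · rw [if_neg hab, Pi.single_eq_of_ne hab, rk_zero_left]
  | cons c w ih =>
    obtain ⟨z, hz, hz0⟩ := ih
    refine ⟨graft S c z, hz.graft hS c, fun v => ?_⟩
    funext a
    show ∑ d, LT q S w.length (fun x => graft S c z (d :: x)) (S d v) a = _
    rw [Finset.sum_eq_single c]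
    · have h1 : (fun x => graft S c z (c :: x)) = z := funext fun x => if_pos rfl
      rw [h1, hz0, wd_cons]
    · intro d _ hd
      have h1 : (fun x => graft S c z (d :: x)) = fun _ => 0 := funext fun x => if_neg hd
      rw [h1]
      have h2 : ∀ (m : ℕ) (u : V), LT q S m (fun _ => (0 : V)) u a = 0 := by
        intro m
        induction m with
        | zero => intro u; exact rk_zero_left q u
        | succ m ih => intro u; exact Finset.sum_eq_zero fun d _ => ih (S d u)
      exact h2 _ _
    · intro h; exact absurd (Finset.mem_univ _) h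

/-- the same for right tails -/
theorem exists_path_right {U : Submodule L V}
    (hU : ∀ v ∈ U, ∃ w : Fin 3 → V, (∀ a, w a ∈ U) ∧ ∑ a, S a (w a) = v)
    (hS : ∀ c, ∀ v ∈ U, S c v ∈ U) (w : List (Fin 3)) (b : Fin 3) {v₀ : V} (hv : v₀ ∈ U) :
    ∃ y, Tr S U y ∧ ∀ v, RT q S w.length y v = Pi.single b (rk q (wd S w v) v₀) := by
  induction w with
  | nil =>
    obtain ⟨z, hz, hz0⟩ := exists_tree hU hv
    refine ⟨graft S b z, hz.graft hS b, fun v => ?_⟩
    funext a
    show rk q v (if a = b then z [] else 0) = _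
    by_cases hab : a = b
    · subst hab
      rw [if_pos rfl, Pi.single_eq_same, hz0, wd_nil, Module.End.one_apply]
    · rw [if_neg hab, Pi.single_eq_of_ne hab, rk_zero_right]
  | cons c w ih =>
    obtain ⟨z, hz, hz0⟩ := ih
    refine ⟨graft S c z, hz.graft hS c, fun v => ?_⟩
    funext a
    show ∑ d, RT q S w.length (fun x => graft S c z (d :: x)) (S d v) a = _
    rw [Finset.sum_eq_single c]
    · have h1 : (fun x => graft S c z (c :: x)) = z := funext fun x => if_pos rfl
      rw [h1, hz0, wd_cons]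
    · intro d _ hd
      have h1 : (fun x => graft S c z (d :: x)) = fun _ => 0 := funext fun x => if_neg hd
      rw [h1]
      have h2 : ∀ (m : ℕ) (u : V), RT q S m (fun _ => (0 : V)) u a = 0 := by
        intro m
        induction m with
        | zero => intro u; exact rk_zero_right q u
        | succ m ih => intro u; exact Finset.sum_eq_zero fun d _ => ih (S d u)
      exact h2 _ _
    · intro h; exact absurd (Finset.mem_univ _) h

end tails

/-! ### Chains -/

section chain

variable (q : V →ₗ[L] V →ₗ[L] L) (S : Fin 3 → End L V)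

/-- the chain with main part `S_s^k a' ⊗ S_s^{p-1-k} b'` (at the places `N + k`, `k < p`), left
tail `z` and right tail `y` -/
def chn (s : Fin 3) (p N : ℕ) (a' b' : V) (z y : List (Fin 3) → V) (n : ℕ) : Fin 3 → End L V :=
  if n < N then LT q S (N - 1 - n) z ((S s ^ p) b')
  else if n < N + p then Pi.single s (rk q ((S s ^ (n - N)) a') ((S s ^ (N + p - 1 - n)) b'))
  else RT q S (n - (N + p)) y ((S s ^ p) a')

variable {q S}

theorem chn_main {s : Fin 3} {p N : ℕ} {a' b' : V} {z y : List (Fin 3) → V} {k : ℕ} (hk : k < p) :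
    chn q S s p N a' b' z y (N + k) =
      Pi.single s (rk q ((S s ^ k) a') ((S s ^ (p - 1 - k)) b')) := by
  unfold chn
  rw [if_neg (by omega), if_pos (by omega)]
  have h1 : N + k - N = k := by omega
  have h2 : N + p - 1 - (N + k) = p - 1 - k := by omega
  rw [h1, h2]

theorem chn_left {s : Fin 3} {p N : ℕ} {a' b' : V} {z y : List (Fin 3) → V} {m : ℕ} (hm : m < N) :
    chn q S s p N a' b' z y (N - 1 - m) = LT q S m z ((S s ^ p) b') := by
  unfold chn
  rw [if_pos (by omega)]
  have h1 : N - 1 - (N - 1 - m) = m := by omega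
  rw [h1]

theorem chn_right {s : Fin 3} {p N : ℕ} {a' b' : V} {z y : List (Fin 3) → V} (m : ℕ) :
    chn q S s p N a' b' z y (N + p + m) = RT q S m y ((S s ^ p) a') := by
  unfold chn
  rw [if_neg (by omega), if_neg (by omega)]
  have h1 : N + p + m - (N + p) = m := by omega
  rw [h1]

theorem sum_mul_single (s : Fin 3) (A : End L V) :
    ∑ a, S a * (Pi.single s A : Fin 3 → End L V) a = S s * A := by
  rw [Finset.sum_eq_single s]
  · rw [Pi.single_eq_same]
  · intro a _ ha
    rw [Pi.single_eq_of_ne ha, mul_zero]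
  · intro h; exact absurd (Finset.mem_univ _) h

theorem sum_single_mul (s : Fin 3) (A : End L V) :
    ∑ a, (Pi.single s A : Fin 3 → End L V) a * S a = A * S s := by
  rw [Finset.sum_eq_single s]
  · rw [Pi.single_eq_same]
  · intro a _ ha
    rw [Pi.single_eq_of_ne ha, zero_mul]
  · intro h; exact absurd (Finset.mem_univ _) h

/-- **The chain relation.** -/
theorem chn_rel (hS : ∀ a, IsSA q (S a)) {Ui Uj : Submodule L V} {s : Fin 3} {p N : ℕ}
    (hp : 0 < p) {a' b' : V} {z y : List (Fin 3) → V} (hz : Tr S Ui z) (hz0 : z [] = a')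
    (hy : Tr S Uj y) (hy0 : y [] = b') (n : ℕ) :
    ∑ a, S a * chn q S s p N a' b' z y n a = ∑ a, chn q S s p N a' b' z y (n + 1) a * S a := by
  have hSp : ∀ (k : ℕ) (v : V), S s ((S s ^ k) v) = (S s ^ (k + 1)) v := fun k v => by
    rw [pow_succ']; rfl
  rcases lt_trichotomy (n + 1) N with h | h | h
  · -- inside the left tail
    obtain ⟨m, rfl⟩ : ∃ m, N = n + 2 + m := ⟨N - (n + 2), by omega⟩
    have e1 : chn q S s p (n + 2 + m) a' b' z y n = LT q S (m + 1) z ((S s ^ p) b') := by
      have := chn_left (q := q) (S := S) (s := s) (p := p) (a' := a') (b' := b') (z := z)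
        (y := y) (N := n + 2 + m) (m := m + 1) (by omega)
      rwa [show n + 2 + m - 1 - (m + 1) = n by omega] at this
    have e2 : chn q S s p (n + 2 + m) a' b' z y (n + 1) = LT q S m z ((S s ^ p) b') := by
      have := chn_left (q := q) (S := S) (s := s) (p := p) (a' := a') (b' := b') (z := z)
        (y := y) (N := n + 2 + m) (m := m) (by omega)
      rwa [show n + 2 + m - 1 - m = n + 1 by omega] at this
    rw [e1, e2]
    exact LT_succ_rel hS m hz _
  · -- from the left tail to the main part
    subst h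
    have e1 : chn q S s p (n + 1) a' b' z y n = LT q S 0 z ((S s ^ p) b') := by
      have := chn_left (q := q) (S := S) (s := s) (p := p) (a' := a') (b' := b') (z := z)
        (y := y) (N := n + 1) (m := 0) (by omega)
      rwa [show n + 1 - 1 - 0 = n by omega] at this
    have e2 := chn_main (q := q) (S := S) (s := s) (p := p) (a' := a') (b' := b') (z := z)
      (y := y) (N := n + 1) (k := 0) hp
    rw [add_zero] at e2
    rw [e1, e2, LT_zero_rel hS hz, sum_single_mul, rk_mul (hS s), hSp, hz0, pow_zero,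
      Module.End.one_apply]
    congr 2
    congr 1
    omega
  · by_cases h' : n + 1 < N + p
    · -- inside the main part
      obtain ⟨k, rfl⟩ : ∃ k, n = N + k := ⟨n - N, by omega⟩
      have hk : k + 1 < p := by omega
      rw [chn_main (by omega), add_assoc, chn_main hk, sum_mul_single, sum_single_mul, mul_rk,
        rk_mul (hS s), hSp, hSp]
      congr 2
      congr 1
      omega
    · by_cases h2 : n + 1 = N + p
      · -- from the main part to the right tail
        obtain ⟨k, rfl⟩ : ∃ k, p = k + 1 := ⟨p - 1, by omega⟩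
        obtain rfl : n = N + k := by omega
        rw [chn_main (by omega)]
        have e2 := chn_right (q := q) (S := S) (s := s) (p := k + 1) (a' := a') (b' := b')
          (z := z) (y := y) (N := N) 0
        rw [add_zero, ← add_assoc] at e2
        rw [e2, RT_zero_rel hS hy, sum_mul_single, mul_rk, hSp, hy0,
          show k + 1 - 1 - k = 0 by omega, pow_zero, Module.End.one_apply]
      · -- inside the right tail
        obtain ⟨m, rfl⟩ : ∃ m, n = N + p + m := ⟨n - (N + p), by omega⟩
        rw [chn_right, add_assoc (N + p), chn_right]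
        exact (RT_succ_rel hS m hy _).symm

/-- the beginning of the chain -/
theorem chn_start (hS : ∀ a, IsSA q (S a)) {Ui : Submodule L V} {s : Fin 3} {p N : ℕ}
    (hN : 0 < N) {a' b' : V} {z y : List (Fin 3) → V} (hz : Tr S Ui z)
    (hb : ∀ w : List (Fin 3), w.length = N → wd S w ((S s ^ p) b') = 0) :
    ∑ a, chn q S s p N a' b' z y 0 a * S a = 0 := by
  have e1 : chn q S s p N a' b' z y 0 = LT q S (N - 1) z ((S s ^ p) b') := by
    unfold chn
    rw [if_pos hN, Nat.sub_zero]
  rw [e1, ← LT_succ_rel hS (N - 1) hz, Nat.sub_add_cancel hN]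
  exact Finset.sum_eq_zero fun a _ => by rw [LT_eq_zero N hb a, mul_zero]

/-- the end of the chain -/
theorem chn_end {s : Fin 3} {p N : ℕ} {a' b' : V} {z y : List (Fin 3) → V}
    (ha : ∀ w : List (Fin 3), N ≤ w.length → wd S w ((S s ^ p) a') = 0) {n : ℕ}
    (hn : N + p + N ≤ n) : chn q S s p N a' b' z y n = 0 := by
  obtain ⟨m, rfl⟩ : ∃ m, n = N + p + m := ⟨n - (N + p), by omega⟩
  rw [chn_right]
  funext a
  exact RT_eq_zero m (fun w hw => ha w (by omega)) a

/-- **The total of a chain satisfies the commutation relation.** -/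
theorem chain_total {T : ℕ → Fin 3 → End L V} {M : ℕ}
    (h0 : ∑ a, T 0 a * S a = 0) (h : ∀ n, ∑ a, S a * T n a = ∑ a, T (n + 1) a * S a)
    (hM : T M = 0) (ρ : L) :
    ∑ a, (ρ • (S a * (∑ n ∈ Finset.range M, ρ ^ n • T n) a) -
      (∑ n ∈ Finset.range M, ρ ^ n • T n) a * S a) = 0 := by
  have h1 : ∀ m, ∑ a, (ρ • (S a * (∑ n ∈ Finset.range m, ρ ^ n • T n) a) -
      (∑ n ∈ Finset.range m, ρ ^ n • T n) a * S a) = ρ ^ m • ∑ a, T m a * S a := by
    intro m
    induction m with
    | zero => simp [h0]
    | succ m ih =>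
      have h2 : ∀ a, (ρ • (S a * (∑ n ∈ Finset.range (m + 1), ρ ^ n • T n) a) -
          (∑ n ∈ Finset.range (m + 1), ρ ^ n • T n) a * S a) =
          (ρ • (S a * (∑ n ∈ Finset.range m, ρ ^ n • T n) a) -
            (∑ n ∈ Finset.range m, ρ ^ n • T n) a * S a) +
          (ρ ^ (m + 1) • (S a * T m a) - ρ ^ m • (T m a * S a)) := by
        intro a
        rw [Finset.sum_range_succ, Pi.add_apply, Pi.smul_apply, mul_add, add_mul, smul_add,
          mul_smul_comm, smul_mul_assoc, smul_smul, ← pow_succ']
        abel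
      rw [Finset.sum_congr rfl fun a _ => h2 a, Finset.sum_add_distrib, ih,
        Finset.sum_sub_distrib, ← Finset.smul_sum, ← Finset.smul_sum, h m]
      abel
  rw [h1 M, hM]
  simp

end chain

end Vale.Agent.P182.H818
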